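import Vale.Agent.P251.St.Result2
import Vale.Agent.P251.X.KExists
import Vale.Agent.P251.Z.Final
import Vale.Agent.P251.M.BGlueD

/-!
# P251: the weak chromatic splitting conjecture fails at `n = p = 5`

There is a stable homotopy category with a suspension spectrum functor; in each of them Bousfield
localizations exist, Morava K-theories of all heights at `5` and a spectrum `E` with the Bousfield
class of `K(0) ∨ ⋯ ∨ K(4)` exist, and for `p = n = 5` the canonical map
`L_{n-1} S_p ⟶ L_{n-1} L_{K(n)} S_p` has no retraction.

The statement uses only the definitions of `T/Axioms.lean`, `St/Base.lean` and `St/Chrom.lean`.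
-/

open CategoryTheory MonoidalCategory

namespace Vale.Agent.Results.P251.SplittingFails

open Vale.Agent.P251 Vale.Agent.P251.St Vale.Agent.P251.St.SHCat

theorem result : (∃ T : SHCat, Nonempty (Susp T)) ∧ ∀ (T : SHCat) (S : Susp T),
    (∀ E X : T.C, ∃ (Y : T.C) (f : Hom X Y), IsLoc E f) ∧
    (∃ K : ℕ → RingSp T, (∀ i, IsMorava S (K i) 5 i) ∧ ∃ E : T.C, IsClassE 5 K E) ∧
    NoRetraction S 5 5 :=
  statement2_of
    (fun T F => by
      have := locallySmall_self.{0} T.C
      exact Z.noRetraction_of_statement M.MU_univ F)
    (fun T F n => by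
      have := locallySmall_self.{0} T.C
      have : Fact (Nat.Prime 5) := ⟨by norm_num⟩
      exact X.exists_isMorava F (by norm_num) n)

end Vale.Agent.Results.P251.SplittingFails
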